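import Mathlib

/-!
# P352 / BW, block A: the strip lemma (helper266)

`strip`: two bounded functions on the closed strip `0 ≤ Im z ≤ 1/2`, analytic inside, continuous up to the
boundary except at the two points `0` and `i/2`, which exchange their boundary values,
`f (s + i/2) = g s`, `g (s + i/2) = f s` for real `s ≠ 0`, are one and the same constant.
-/

open Set Filter MeasureTheory Complex Topology

namespace Vale.Agent.P352.BW.H266

/-- The closed strip. -/
def St : Set ℂ := {z | 0 ≤ z.im ∧ z.im ≤ 1 / 2}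

structure Dat (h : ℂ → ℂ) (M : ℝ) : Prop where
  dif : ∀ z : ℂ, 0 < z.im → z.im < 1 / 2 → DifferentiableAt ℂ h z
  con : ∀ z : ℂ, z ∈ St → z ≠ 0 → z ≠ I / 2 → ContinuousWithinAt h St z
  bd : ∀ z ∈ St, ‖h z‖ ≤ M

/-- A function with equal end values all of whose Fourier coefficients but the zeroth vanish is constant. -/
theorem fourier_one {T : ℝ} (hT : 0 < T) {ψ : ℝ → ℂ} (h0 : ψ 0 = ψ T) (hc : ContinuousOn ψ (Icc 0 T))
    (hn : ∀ n : ℤ, n ≠ 0 → ∫ y in (0:ℝ)..T, Complex.exp (2 * Real.pi * I * n * y / T) * ψ y = 0)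
    {y : ℝ} (hy : y ∈ Ico 0 T) : ψ y = (1 / T : ℝ) • ∫ y in (0:ℝ)..T, ψ y := by
  have : Fact (0 < T) := ⟨hT⟩
  let F : C(AddCircle T, ℂ) := ⟨AddCircle.liftIco T 0 ψ, AddCircle.liftIco_zero_continuous h0 hc⟩
  have hF : ∀ n : ℤ, fourierCoeff F n
      = (1 / T : ℝ) • ∫ y in (0:ℝ)..T, Complex.exp (2 * Real.pi * I * (-n : ℤ) * y / T) * ψ y := by
    intro n
    have h1 := fourierCoeff_liftIco_eq (T := T) (a := 0) ψ n
    have h2 : fourierCoeff F n = fourierCoeff (AddCircle.liftIco T 0 ψ) n := rfl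
    rw [h2, fourierCoeff_eq_intervalIntegral _ _ 0]
    congr 1
    rw [zero_add]
    refine intervalIntegral.integral_congr_Ioo_of_le hT.le fun x hx => ?_
    rw [AddCircle.liftIco_zero_coe_apply (Ioo_subset_Ico_self hx), fourier_coe_apply, smul_eq_mul]
  have hz : ∀ n : ℤ, n ≠ 0 → fourierCoeff F n = 0 := by
    intro n hn0
    rw [hF, hn (-n) (by simpa using hn0), smul_zero]
  have hs : Summable (fourierCoeff F) := by
    refine summable_of_ne_finset_zero (s := {0}) ?_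
    intro n hn0
    exact hz n (by simpa using hn0)
  have h3 := has_pointwise_sum_fourier_series_of_summable hs (y : AddCircle T)
  have h4 : HasSum (fun i => fourierCoeff F i • fourier i (y : AddCircle T))
      (fourierCoeff F 0 • fourier 0 (y : AddCircle T)) := by
    refine hasSum_single 0 ?_
    intro n hn0
    rw [hz n hn0, zero_smul]
  have h5 := h3.unique h4
  have h6 : F (y : AddCircle T) = ψ y := AddCircle.liftIco_zero_coe_apply hy
  rw [← h6, h5, hF 0]
  simp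

variable {h : ℂ → ℂ} {M : ℝ}

theorem Dat.mulExp (hd : Dat h M) (κ : ℝ) :
    (∀ z : ℂ, 0 < z.im → z.im < 1 / 2 → DifferentiableAt ℂ (fun z => h z * exp (-(κ * z))) z) ∧
    (∀ z : ℂ, z ∈ St → z ≠ 0 → z ≠ I / 2 →
      ContinuousWithinAt (fun z => h z * exp (-(κ * z))) St z) ∧
    (∀ z ∈ St, ‖h z * exp (-(κ * z))‖ ≤ M * Real.exp (-(κ * z.re))) := by
  refine ⟨fun z h1 h2 => (hd.dif z h1 h2).mul (by fun_prop), fun z h1 h2 h3 => ?_, fun z hz => ?_⟩
  · refine (hd.con z h1 h2 h3).mul ?_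
    exact (by fun_prop : Continuous fun z : ℂ => exp (-(κ * z))).continuousWithinAt
  · rw [norm_mul, Complex.norm_exp]
    have : (-(↑κ * z)).re = -(κ * z.re) := by simp
    rw [this]
    exact mul_le_mul_of_nonneg_right (hd.bd z hz) (Real.exp_pos _).le

/-- vertical integrals of a function with period `i/2` do not depend on the abscissa (one side) -/
theorem vert_eq {H : ℂ → ℂ}
    (h1 : ∀ z : ℂ, 0 < z.im → z.im < 1 / 2 → DifferentiableAt ℂ H z)
    (h2 : ∀ z : ℂ, z ∈ St → z ≠ 0 → z ≠ I / 2 → ContinuousWithinAt H St z)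
    (h3 : ∀ s : ℝ, s ≠ 0 → H (s + (1 / 2 : ℝ) * I) = H (s + (0 : ℝ) * I))
    {a b : ℝ} (hab : (0 : ℝ) ∉ uIcc a b) :
    ∫ y in (0:ℝ)..(1 / 2), H (a + y * I) = ∫ y in (0:ℝ)..(1 / 2), H (b + y * I) := by
  have key := Complex.integral_boundary_rect_eq_zero_of_continuousOn_of_differentiableOn H
    (a + (0 : ℝ) * I) (b + (1 / 2 : ℝ) * I) ?_ ?_
  · have e1 : ((a : ℂ) + (0 : ℝ) * I).re = a := by simp
    have e2 : ((a : ℂ) + (0 : ℝ) * I).im = 0 := by simp
    have e3 : ((b : ℂ) + (1 / 2 : ℝ) * I).re = b := by simp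
    have e4 : ((b : ℂ) + (1 / 2 : ℝ) * I).im = 1 / 2 := by simp
    rw [e1, e2, e3, e4] at key
    have e5 : (∫ x : ℝ in a..b, H (x + (0 : ℝ) * I)) = ∫ x : ℝ in a..b, H (x + (1 / 2 : ℝ) * I) := by
      refine intervalIntegral.integral_congr fun x hx => ?_
      have hx0 : x ≠ 0 := fun hh => hab (hh ▸ hx)
      exact (h3 x hx0).symm
    rw [e5, sub_self, zero_add, ← smul_sub, smul_eq_mul, mul_eq_zero] at key
    rcases key with hh | hh
    · exact absurd hh I_ne_zero
    · exact (sub_eq_zero.1 hh).symm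
  · have e1 : ((a : ℂ) + (0 : ℝ) * I).re = a := by simp
    have e2 : ((a : ℂ) + (0 : ℝ) * I).im = 0 := by simp
    have e3 : ((b : ℂ) + (1 / 2 : ℝ) * I).re = b := by simp
    have e4 : ((b : ℂ) + (1 / 2 : ℝ) * I).im = 1 / 2 := by simp
    rw [e1, e2, e3, e4]
    have hsub : (uIcc a b ×ℂ uIcc (0:ℝ) (1 / 2)) ⊆ St := by
      intro z hz
      have hz2 : z.im ∈ uIcc (0:ℝ) (1 / 2) := hz.2
      rw [uIcc_of_le (by norm_num)] at hz2
      exact ⟨hz2.1, hz2.2⟩
    intro z hz
    have hz1 : z.re ∈ uIcc a b := hz.1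
    have hre : z.re ≠ 0 := fun hh => hab (hh ▸ hz1)
    refine (h2 z (hsub hz) ?_ ?_).mono hsub
    · rintro rfl; exact hre rfl
    · rintro rfl; exact hre (by simp)
  · have e1 : ((a : ℂ) + (0 : ℝ) * I).re = a := by simp
    have e2 : ((a : ℂ) + (0 : ℝ) * I).im = 0 := by simp
    have e3 : ((b : ℂ) + (1 / 2 : ℝ) * I).re = b := by simp
    have e4 : ((b : ℂ) + (1 / 2 : ℝ) * I).im = 1 / 2 := by simp
    rw [e1, e2, e3, e4]
    intro z hz
    have hz2 : z.im ∈ Ioo (min (0:ℝ) (1 / 2)) (max 0 (1 / 2)) := hz.2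
    rw [min_eq_left (by norm_num), max_eq_right (by norm_num)] at hz2
    exact (h1 z hz2.1 hz2.2).differentiableWithinAt

theorem vert_cont {H : ℂ → ℂ} {K : ℝ → ℝ}
    (h1 : ∀ z : ℂ, 0 < z.im → z.im < 1 / 2 → DifferentiableAt ℂ H z)
    (hK : ContinuousAt K 0)
    (h4 : ∀ z ∈ St, ‖H z‖ ≤ K z.re) :
    ContinuousAt (fun x : ℝ => ∫ y in (0:ℝ)..(1 / 2), H (x + y * I)) 0 := by
  have hev : ∀ᶠ x in 𝓝 (0:ℝ), K x < K 0 + 1 := hK.eventually_lt continuousAt_const (by linarith)
  refine intervalIntegral.continuousAt_of_dominated_interval (bound := fun _ => K 0 + 1) ?_ ?_ ?_ ?_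
  · refine Eventually.of_forall fun x => ?_
    rw [uIoc_of_le (by norm_num)]
    have hc : ContinuousOn (fun y : ℝ => H (x + y * I)) (Ioo (0:ℝ) (1 / 2)) := by
      intro y hy
      have hz1 : ((x : ℂ) + y * I).im = y := by simp
      have hd := h1 (x + y * I) (by rw [hz1]; exact hy.1) (by rw [hz1]; exact hy.2)
      have : ContinuousAt (fun y : ℝ => H (x + y * I)) y := by
        refine ContinuousAt.comp (f := fun y : ℝ => (x : ℂ) + y * I) (g := H) hd.continuousAt ?_
        fun_prop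
      exact this.continuousWithinAt
    have := hc.aestronglyMeasurable (μ := volume) measurableSet_Ioo
    rwa [Measure.restrict_congr_set Ioo_ae_eq_Ioc] at this
  · filter_upwards [hev] with x hx
    refine Eventually.of_forall fun y hy => ?_
    rw [uIoc_of_le (by norm_num)] at hy
    have hz1 : ((x : ℂ) + y * I).im = y := by simp
    have hz2 : ((x : ℂ) + y * I).re = x := by simp
    have := h4 (x + y * I) ⟨by rw [hz1]; exact hy.1.le, by rw [hz1]; exact hy.2⟩
    rw [hz2] at this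
    linarith
  · exact intervalIntegrable_const
  · have hne : ∀ᵐ y : ℝ, y ≠ 1 / 2 := by
      have := (measure_singleton (μ := (volume : Measure ℝ)) (1 / 2 : ℝ))
      exact compl_mem_ae_iff.2 this
    filter_upwards [hne] with y hy hy2
    rw [uIoc_of_le (by norm_num)] at hy2
    have hy3 : y < 1 / 2 := lt_of_le_of_ne hy2.2 hy
    have hz1 : (((0 : ℝ) : ℂ) + y * I).im = y := by simp
    have hd := h1 (((0 : ℝ) : ℂ) + y * I) (by rw [hz1]; exact hy2.1) (by rw [hz1]; exact hy3)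
    refine ContinuousAt.comp (f := fun x : ℝ => (x : ℂ) + y * I) (g := H) hd.continuousAt ?_
    fun_prop

/-- vertical integrals of a function with period `i/2` do not depend on the abscissa -/
theorem vert_const {H : ℂ → ℂ} {K : ℝ → ℝ}
    (h1 : ∀ z : ℂ, 0 < z.im → z.im < 1 / 2 → DifferentiableAt ℂ H z)
    (h2 : ∀ z : ℂ, z ∈ St → z ≠ 0 → z ≠ I / 2 → ContinuousWithinAt H St z)
    (h3 : ∀ s : ℝ, s ≠ 0 → H (s + (1 / 2 : ℝ) * I) = H (s + (0 : ℝ) * I))
    (hK : ContinuousAt K 0)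
    (h4 : ∀ z ∈ St, ‖H z‖ ≤ K z.re) (a : ℝ) :
    ∫ y in (0:ℝ)..(1 / 2), H (a + y * I) = ∫ y in (0:ℝ)..(1 / 2), H ((0 : ℝ) + y * I) := by
  set C : ℝ → ℂ := fun x : ℝ => ∫ y in (0:ℝ)..(1 / 2), H (x + y * I) with hC
  have hcont : ContinuousAt C 0 := vert_cont h1 hK h4
  change C a = C 0
  rcases lt_trichotomy a 0 with ha | ha | ha
  · have hev : (fun _ : ℝ => C a) =ᶠ[𝓝[<] 0] C := by
      filter_upwards [self_mem_nhdsWithin] with x hx
      refine vert_eq h1 h2 h3 ?_
      rw [mem_uIcc]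
      rintro (hh | hh)
      · exact absurd hh.2 (not_le.2 hx)
      · exact absurd hh.2 (not_le.2 ha)
    have ht1 : Tendsto C (𝓝[<] 0) (𝓝 (C 0)) := hcont.tendsto.mono_left nhdsWithin_le_nhds
    have ht2 : Tendsto C (𝓝[<] 0) (𝓝 (C a)) := tendsto_const_nhds.congr' hev
    exact tendsto_nhds_unique ht2 ht1
  · rw [ha]
  · have hev : (fun _ : ℝ => C a) =ᶠ[𝓝[>] 0] C := by
      filter_upwards [self_mem_nhdsWithin] with x hx
      refine vert_eq h1 h2 h3 ?_
      rw [mem_uIcc]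
      rintro (hh | hh)
      · exact absurd hh.1 (not_le.2 ha)
      · exact absurd hh.1 (not_le.2 hx)
    have ht1 : Tendsto C (𝓝[>] 0) (𝓝 (C 0)) := hcont.tendsto.mono_left nhdsWithin_le_nhds
    have ht2 : Tendsto C (𝓝[>] 0) (𝓝 (C a)) := tendsto_const_nhds.congr' hev
    exact tendsto_nhds_unique ht2 ht1

/-- the vertical integral of a decaying periodic function vanishes -/
theorem vert_zero (hd : Dat h M) {κ : ℝ} (hκ : κ ≠ 0)
    (h3 : ∀ s : ℝ, s ≠ 0 → h (s + (1 / 2 : ℝ) * I) = exp (κ * (I / 2)) * h (s + (0 : ℝ) * I)) (a : ℝ) :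
    ∫ y in (0:ℝ)..(1 / 2), h (a + y * I) * exp (-(κ * (a + y * I))) = 0 := by
  obtain ⟨g1, g2, g4⟩ := hd.mulExp κ
  have g3 : ∀ s : ℝ, s ≠ 0 → (fun z => h z * exp (-(κ * z))) (s + (1 / 2 : ℝ) * I)
      = (fun z => h z * exp (-(κ * z))) (s + (0 : ℝ) * I) := by
    intro s hs
    simp only
    rw [h3 s hs, mul_comm (exp _) (h _), mul_assoc, ← Complex.exp_add]
    congr 2
    push_cast
    ring
  have hM : 0 ≤ M := le_trans (norm_nonneg _) (hd.bd 0 ⟨by simp, by simp⟩)
  have hK : ContinuousAt (fun x : ℝ => M * Real.exp (-(κ * x))) 0 := by fun_prop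
  have hconst := vert_const (H := fun z => h z * exp (-(κ * z)))
    (K := fun x : ℝ => M * Real.exp (-(κ * x))) g1 g2 g3 hK g4
  have hbd : ∀ x : ℝ, ‖∫ y in (0:ℝ)..(1 / 2), h (x + y * I) * exp (-(κ * (x + y * I)))‖
      ≤ (M * Real.exp (-(κ * x))) * |1 / 2 - 0| := by
    intro x
    refine intervalIntegral.norm_integral_le_of_norm_le_const fun y hy => ?_
    rw [uIoc_of_le (by norm_num)] at hy
    have hz1 : ((x : ℂ) + y * I).im = y := by simp
    have hz2 : ((x : ℂ) + y * I).re = x := by simp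
    have := g4 (x + y * I) ⟨by rw [hz1]; exact hy.1.le, by rw [hz1]; exact hy.2⟩
    rwa [hz2] at this
  have hc2 : ∀ x : ℝ, ‖∫ y in (0:ℝ)..(1 / 2), h (a + y * I) * exp (-(κ * (a + y * I)))‖
      ≤ (M * Real.exp (-(κ * x))) * |1 / 2 - 0| := by
    intro x
    have e := (hconst a).trans (hconst x).symm
    rw [e]
    exact hbd x
  refine norm_le_zero_iff.1 ?_
  rcases lt_or_gt_of_ne hκ with hk | hk
  · have ht : Tendsto (fun x : ℝ => (M * Real.exp (-(κ * x))) * |1 / 2 - 0|) atBot (𝓝 0) := by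
      have h5 : Tendsto (fun x : ℝ => -(κ * x)) atBot atBot := by
        have := (tendsto_id (α := ℝ) (x := atBot)).const_mul_atBot (neg_pos.2 hk)
        simpa [neg_mul] using this
      have h6 := (Real.tendsto_exp_atBot.comp h5).const_mul M
      have h7 := h6.mul_const |1 / 2 - (0:ℝ)|
      simpa using h7
    exact ge_of_tendsto' ht hc2
  · have ht : Tendsto (fun x : ℝ => (M * Real.exp (-(κ * x))) * |1 / 2 - 0|) atTop (𝓝 0) := by
      have h5 : Tendsto (fun x : ℝ => -(κ * x)) atTop atBot := by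
        have := (tendsto_id (α := ℝ) (x := atTop)).const_mul_atTop hk
        exact tendsto_neg_atTop_atBot.comp this
      have h6 := (Real.tendsto_exp_atBot.comp h5).const_mul M
      have h7 := h6.mul_const |1 / 2 - (0:ℝ)|
      simpa using h7
    exact ge_of_tendsto' ht hc2

theorem Dat.contOn (hd : Dat h M) {s : ℝ} (hs : s ≠ 0) :
    ContinuousOn (fun y : ℝ => h (s + y * I)) (Icc (0:ℝ) (1 / 2)) := by
  intro y hy
  have hz1 : ((s : ℂ) + y * I).im = y := by simp
  have hz2 : ((s : ℂ) + y * I).re = s := by simp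
  have hmem : ((s : ℂ) + y * I) ∈ St := ⟨by rw [hz1]; exact hy.1, by rw [hz1]; exact hy.2⟩
  have hc := hd.con (s + y * I) hmem
    (by intro hh; apply hs; rw [← hz2, hh]; simp) (by intro hh; apply hs; rw [← hz2, hh]; simp)
  refine ContinuousWithinAt.comp (f := fun y : ℝ => (s : ℂ) + y * I) (g := h) (t := St) hc ?_ ?_
  · exact (by fun_prop : Continuous fun y : ℝ => (s : ℂ) + y * I).continuousWithinAt
  · intro x hx
    have hz3 : ((s : ℂ) + x * I).im = x := by simp
    exact ⟨by rw [hz3]; exact hx.1, by rw [hz3]; exact hx.2⟩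

/-- the periodic part is constant on vertical lines and the constant is the same for all lines -/
theorem per_const (hd : Dat h M)
    (h3 : ∀ s : ℝ, s ≠ 0 → h (s + (1 / 2 : ℝ) * I) = h (s + (0 : ℝ) * I)) :
    ∀ s : ℝ, s ≠ 0 → ∀ y ∈ Icc (0:ℝ) (1 / 2),
      h (s + y * I) = (2 : ℝ) • ∫ y in (0:ℝ)..(1 / 2), h ((0 : ℝ) + y * I) := by
  intro s hs
  have hIco : ∀ y ∈ Ico (0:ℝ) (1 / 2),
      h (s + y * I) = (2 : ℝ) • ∫ y in (0:ℝ)..(1 / 2), h ((0 : ℝ) + y * I) := by
    intro y hy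
    have := fourier_one (T := 1 / 2) (ψ := fun y : ℝ => h (s + y * I)) (by norm_num) (h3 s hs).symm
      (hd.contOn hs) ?_ hy
    · rw [this, vert_const hd.dif hd.con h3 (K := fun _ => M) continuousAt_const hd.bd s]
      norm_num
    · intro n hn
      have hk : (4 * Real.pi * (-n : ℤ) : ℝ) ≠ 0 := by
        have : ((-n : ℤ) : ℝ) ≠ 0 := by exact_mod_cast (neg_ne_zero.2 hn)
        positivity
      have hz := vert_zero hd hk (fun s hs => by
        rw [h3 s hs]
        have : exp (((4 * Real.pi * (-n : ℤ) : ℝ) : ℂ) * (I / 2)) = 1 := by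
          rw [Complex.exp_eq_one_iff]
          exact ⟨-n, by push_cast; ring⟩
        rw [this, one_mul]) s
      have e : ∀ y : ℝ, h (s + y * I) * exp (-(((4 * Real.pi * (-n : ℤ) : ℝ) : ℂ) * (s + y * I)))
          = exp (4 * Real.pi * n * s) *
            (exp (2 * Real.pi * I * n * y / ((1 / 2 : ℝ) : ℂ)) * h (s + y * I)) := by
        intro y
        rw [← mul_assoc, ← Complex.exp_add, mul_comm]
        congr 2
        push_cast
        ring
      simp_rw [e] at hz
      rw [intervalIntegral.integral_const_mul, mul_eq_zero] at hz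
      rcases hz with hz | hz
      · exact absurd hz (Complex.exp_ne_zero _)
      · exact hz
  intro y hy
  rcases eq_or_lt_of_le hy.2 with hh | hh
  · rw [hh, h3 s hs]
    exact hIco 0 ⟨le_refl _, by norm_num⟩
  · exact hIco y ⟨hy.1, hh⟩

/-- the antiperiodic part vanishes -/
theorem anti_zero (hd : Dat h M)
    (h3 : ∀ s : ℝ, s ≠ 0 → h (s + (1 / 2 : ℝ) * I) = -h (s + (0 : ℝ) * I)) :
    ∀ s : ℝ, s ≠ 0 → ∀ y ∈ Icc (0:ℝ) (1 / 2), h (s + y * I) = 0 := by
  intro s hs
  have hphase : ∀ m : ℤ, exp (((2 * Real.pi + 4 * Real.pi * m : ℝ) : ℂ) * (I / 2)) = -1 := by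
    intro m
    have : ((2 * Real.pi + 4 * Real.pi * m : ℝ) : ℂ) * (I / 2)
        = Real.pi * I + m * (2 * Real.pi * I) := by push_cast; ring
    rw [this, Complex.exp_add, Complex.exp_pi_mul_I]
    have : exp (m * (2 * Real.pi * I)) = 1 := Complex.exp_eq_one_iff.2 ⟨m, rfl⟩
    rw [this, mul_one]
  have hne : ∀ m : ℤ, (2 * Real.pi + 4 * Real.pi * m : ℝ) ≠ 0 := by
    intro m hm
    have h5 : 2 * Real.pi * (1 + 2 * (m : ℝ)) = 0 := by linarith
    rcases mul_eq_zero.1 h5 with h6 | h6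
    · exact absurd h6 (by positivity)
    · have h7 : (1 + 2 * m : ℤ) = 0 := by exact_mod_cast h6
      omega
  have hz : ∀ m : ℤ, ∫ y in (0:ℝ)..(1 / 2),
      exp (2 * Real.pi * I * (-m : ℤ) * y / ((1 / 2 : ℝ) : ℂ)) *
        (h (s + y * I) * exp (-(2 * Real.pi * I * y))) = 0 := by
    intro m
    have hz := vert_zero hd (hne m) (fun s hs => by rw [h3 s hs, hphase m]; ring) s
    have e : ∀ y : ℝ, h (s + y * I) * exp (-(((2 * Real.pi + 4 * Real.pi * m : ℝ) : ℂ) * (s + y * I)))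
        = exp (-((2 * Real.pi + 4 * Real.pi * m) * s)) *
          (exp (2 * Real.pi * I * (-m : ℤ) * y / ((1 / 2 : ℝ) : ℂ)) *
            (h (s + y * I) * exp (-(2 * Real.pi * I * y)))) := by
      intro y
      have e1 : exp (-(((2 * Real.pi + 4 * Real.pi * m : ℝ) : ℂ) * (s + y * I)))
          = exp (-((2 * Real.pi + 4 * Real.pi * m) * s)) *
            (exp (2 * Real.pi * I * (-m : ℤ) * y / ((1 / 2 : ℝ) : ℂ)) *
              exp (-(2 * Real.pi * I * y))) := by
        rw [← Complex.exp_add, ← Complex.exp_add]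
        congr 1
        push_cast
        ring
      rw [e1]
      ring
    simp_rw [e] at hz
    rw [intervalIntegral.integral_const_mul, mul_eq_zero] at hz
    rcases hz with hz | hz
    · exact absurd hz (Complex.exp_ne_zero _)
    · exact hz
  have hIco : ∀ y ∈ Ico (0:ℝ) (1 / 2), h (s + y * I) = 0 := by
    intro y hy
    have := fourier_one (T := 1 / 2) (ψ := fun y : ℝ => h (s + y * I) * exp (-(2 * Real.pi * I * y)))
      (by norm_num) ?_ ?_ ?_ hy
    · have h0 := hz 0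
      simp only [neg_zero, Int.cast_zero, mul_zero, zero_mul, zero_div, Complex.exp_zero,
        one_mul] at h0
      rw [h0, smul_zero, mul_eq_zero] at this
      rcases this with hh | hh
      · exact hh
      · exact absurd hh (Complex.exp_ne_zero _)
    · rw [h3 s hs]
      have e1 : exp (-(2 * Real.pi * I * ((0 : ℝ) : ℂ))) = 1 := by simp
      have e2 : exp (-(2 * Real.pi * I * ((1 / 2 : ℝ) : ℂ))) = -1 := by
        have : -(2 * Real.pi * I * ((1 / 2 : ℝ) : ℂ)) = -(Real.pi * I) := by push_cast; ring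
        rw [this, Complex.exp_neg, Complex.exp_pi_mul_I]
        norm_num
      rw [e1, e2]
      ring
    · refine (hd.contOn hs).mul ?_
      exact (by fun_prop : Continuous fun y : ℝ => exp (-(2 * Real.pi * I * y))).continuousOn
    · intro n _
      have := hz (-n)
      simpa using this
  intro y hy
  rcases eq_or_lt_of_le hy.2 with hh | hh
  · rw [hh, h3 s hs, hIco 0 ⟨le_refl _, by norm_num⟩, neg_zero]
  · exact hIco y ⟨hy.1, hh⟩

/-- Constancy off the imaginary axis extends to the imaginary axis. -/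
theorem Dat.const_of (hd : Dat h M) {c : ℂ}
    (hc : ∀ s : ℝ, s ≠ 0 → ∀ y ∈ Icc (0:ℝ) (1 / 2), h (s + y * I) = c)
    {z : ℂ} (hz : z ∈ St) (h0 : z ≠ 0) (h1 : z ≠ I / 2) : h z = c := by
  have hcw := hd.con z hz h0 h1
  have hmap : Tendsto (fun x : ℝ => ((z.re + x : ℝ) : ℂ) + z.im * I) (𝓝[>] 0) (𝓝[St] z) := by
    refine tendsto_nhdsWithin_iff.2 ⟨?_, Eventually.of_forall fun x => ?_⟩
    · have : Tendsto (fun x : ℝ => ((z.re + x : ℝ) : ℂ) + z.im * I) (𝓝 0)
          (𝓝 (((z.re + (0:ℝ) : ℝ) : ℂ) + z.im * I)) := by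
        refine Continuous.tendsto ?_ _
        fun_prop
      rw [add_zero, Complex.re_add_im] at this
      exact this.mono_left nhdsWithin_le_nhds
    · have e : (((z.re + x : ℝ) : ℂ) + z.im * I).im = z.im := by simp
      exact ⟨by rw [e]; exact hz.1, by rw [e]; exact hz.2⟩
  have ht := hcw.tendsto.comp hmap
  have hev : ∀ᶠ x : ℝ in 𝓝[>] 0, h (((z.re + x : ℝ) : ℂ) + z.im * I) = c := by
    by_cases hr : z.re < 0
    · have : ∀ᶠ x : ℝ in 𝓝[>] 0, x < -z.re :=
        mem_nhdsWithin_of_mem_nhds (Iio_mem_nhds (by linarith))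
      filter_upwards [this] with x hx
      exact hc _ (by linarith) _ ⟨hz.1, hz.2⟩
    · filter_upwards [self_mem_nhdsWithin] with x hx
      have hx' : 0 < x := hx
      exact hc _ (by linarith [not_lt.1 hr]) _ ⟨hz.1, hz.2⟩
  have ht2 : Tendsto (h ∘ fun x : ℝ => ((z.re + x : ℝ) : ℂ) + z.im * I) (𝓝[>] 0) (𝓝 c) :=
    tendsto_const_nhds.congr' (by filter_upwards [hev] with x hx using hx.symm)
  exact tendsto_nhds_unique ht ht2

theorem Dat.add {g : ℂ → ℂ} {M' : ℝ} (hf : Dat h M) (hg : Dat g M') :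
    Dat (fun z => h z + g z) (M + M') where
  dif z h1 h2 := (hf.dif z h1 h2).add (hg.dif z h1 h2)
  con z h1 h2 h3 := (hf.con z h1 h2 h3).add (hg.con z h1 h2 h3)
  bd z hz := (norm_add_le _ _).trans (add_le_add (hf.bd z hz) (hg.bd z hz))

theorem Dat.sub {g : ℂ → ℂ} {M' : ℝ} (hf : Dat h M) (hg : Dat g M') :
    Dat (fun z => h z - g z) (M + M') where
  dif z h1 h2 := (hf.dif z h1 h2).sub (hg.dif z h1 h2)
  con z h1 h2 h3 := (hf.con z h1 h2 h3).sub (hg.con z h1 h2 h3)
  bd z hz := (norm_sub_le _ _).trans (add_le_add (hf.bd z hz) (hg.bd z hz))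

/-- **The strip lemma.** -/
theorem strip {f g : ℂ → ℂ} {M M' : ℝ} (hf : Dat f M) (hg : Dat g M')
    (hfg : ∀ s : ℝ, s ≠ 0 → f (s + I / 2) = g s)
    (hgf : ∀ s : ℝ, s ≠ 0 → g (s + I / 2) = f s) :
    ∃ c : ℂ, ∀ z ∈ St, z ≠ 0 → z ≠ I / 2 → f z = c ∧ g z = c := by
  have e1 : ∀ s : ℝ, (s : ℂ) + (1 / 2 : ℝ) * I = s + I / 2 := fun s => by push_cast; ring
  have e2 : ∀ s : ℝ, (s : ℂ) + (0 : ℝ) * I = s := fun s => by simp
  have hp := per_const (hf.add hg) (fun s hs => by
    simp only [e1, e2]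
    rw [hfg s hs, hgf s hs, add_comm])
  have ha := anti_zero (hf.sub hg) (fun s hs => by
    simp only [e1, e2]
    rw [hfg s hs, hgf s hs, neg_sub])
  set c : ℂ := (2 : ℝ) • ∫ y in (0:ℝ)..(1 / 2), (f ((0 : ℝ) + y * I) + g ((0 : ℝ) + y * I)) with hc
  refine ⟨c / 2, fun z hz h0 h1 => ?_⟩
  have k1 : f z + g z = c := (hf.add hg).const_of hp hz h0 h1
  have k2 : f z - g z = 0 := (hf.sub hg).const_of ha hz h0 h1
  have k3 : f z = g z := sub_eq_zero.1 k2
  constructor
  · rw [← k1, k3]; ring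
  · rw [← k1, k3]; ring

end Vale.Agent.P352.BW.H266
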