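import Mathlib

/-!
# P352 / BW, block B, part 1 (helper266): analytic families of bounded continuous functions

`diff_bcf`: a locally bounded, pointwise analytic family `F : ℂ → (ℝ →ᵇ ℂ)` is differentiable in the sup norm.
-/

open Set Filter MeasureTheory Complex Topology Metric
open scoped BoundedContinuousFunction NNReal Real

namespace Vale.Agent.P352.BW.H266

variable {F : ℂ → ℝ →ᵇ ℂ} {z₀ : ℂ} {r C : ℝ}

theorem bcf_lip (hr : 0 < r) (hd : ∀ h : ℝ, DifferentiableOn ℂ (fun z => F z h) (ball z₀ r))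
    (hC : ∀ z ∈ ball z₀ r, ∀ h : ℝ, ‖F z h‖ ≤ C) {z : ℂ} (hz : z ∈ ball z₀ r) :
    dist (F z) (F z₀) ≤ 2 * C / r * dist z z₀ := by
  have hC0 : 0 ≤ C := (norm_nonneg _).trans (hC z₀ (mem_ball_self hr) 0)
  rw [BoundedContinuousFunction.dist_le (by positivity)]
  intro h
  refine Complex.dist_le_div_mul_dist_of_mapsTo_ball (f := fun z => F z h) (hd h) ?_ hz
  intro w hw
  rw [mem_closedBall, dist_eq_norm]
  refine (norm_sub_le _ _).trans ?_
  have := hC w hw h
  have := hC z₀ (mem_ball_self hr) h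
  linarith

theorem bcf_cont (hd : ∀ h : ℝ, DifferentiableOn ℂ (fun z => F z h) (ball z₀ r))
    (hC : ∀ z ∈ ball z₀ r, ∀ h : ℝ, ‖F z h‖ ≤ C) : ContinuousOn F (ball z₀ r) := by
  intro w hw
  have hsub : ∀ ρ : ℝ, ρ = r - dist w z₀ → ball w ρ ⊆ ball z₀ r := by
    intro ρ hρ x hx
    rw [mem_ball] at hx hw ⊢
    have := dist_triangle x w z₀
    linarith
  have hρ : 0 < r - dist w z₀ := by rw [mem_ball] at hw; linarith
  have key : ∀ z ∈ ball w (r - dist w z₀), dist (F z) (F w) ≤ 2 * C / (r - dist w z₀) * dist z w :=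
    fun z hz => bcf_lip hρ (fun h => (hd h).mono (hsub _ rfl)) (fun z hz => hC z (hsub _ rfl hz)) hz
  refine ContinuousAt.continuousWithinAt ?_
  rw [ContinuousAt, tendsto_iff_dist_tendsto_zero]
  have h1 : Tendsto (fun z => 2 * C / (r - dist w z₀) * dist z w) (𝓝 w) (𝓝 0) := by
    have : Tendsto (fun z => dist z w) (𝓝 w) (𝓝 0) := tendsto_iff_dist_tendsto_zero.1 tendsto_id
    simpa using this.const_mul (2 * C / (r - dist w z₀))
  refine squeeze_zero' (Eventually.of_forall fun z => dist_nonneg) ?_ h1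
  filter_upwards [ball_mem_nhds w hρ] with z hz using key z hz

/-- **Pointwise analytic + uniformly bounded ⟹ analytic in the sup norm.** -/
theorem diff_bcf (hr : 0 < r) (hd : ∀ h : ℝ, DifferentiableOn ℂ (fun z => F z h) (ball z₀ r))
    (hC : ∀ z ∈ ball z₀ r, ∀ h : ℝ, ‖F z h‖ ≤ C) : DifferentiableAt ℂ F z₀ := by
  have hcont := bcf_cont hd hC
  set R : ℝ≥0 := ⟨r / 2, by positivity⟩ with hR
  have hRr : (R : ℝ) = r / 2 := rfl
  have hR0 : 0 < R := by rw [← NNReal.coe_pos, hRr]; positivity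
  have hsubc : closedBall z₀ (R : ℝ) ⊆ ball z₀ r := closedBall_subset_ball (by rw [hRr]; linarith)
  have hci : CircleIntegrable F z₀ R := by
    refine ContinuousOn.circleIntegrable R.coe_nonneg (hcont.mono ?_)
    exact sphere_subset_closedBall.trans hsubc
  have hps := hasFPowerSeriesOn_cauchy_integral hci hR0
  have hdiff : DifferentiableAt ℂ
      (fun w => (2 * π * I : ℂ)⁻¹ • ∮ z in C(z₀, R), (z - w)⁻¹ • F z) z₀ :=
    hps.analyticAt.differentiableAt
  refine hdiff.congr_of_eventuallyEq ?_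
  filter_upwards [ball_mem_nhds z₀ (NNReal.coe_pos.2 hR0)] with w hw
  ext h
  have h1 := Complex.two_pi_I_inv_smul_circleIntegral_sub_inv_smul_of_differentiable_on_off_countable
    (c := z₀) (R := R) (w := w) (f := fun z => F z h) countable_empty hw
    ((hd h).continuousOn.mono hsubc) (fun x hx => ((hd h).differentiableAt
      (isOpen_ball.mem_nhds (hsubc (ball_subset_closedBall hx.1)))))
  have hint : CircleIntegrable (fun z => (z - w)⁻¹ • F z) z₀ R := by
    refine ContinuousOn.circleIntegrable R.coe_nonneg ?_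
    have hcs : ContinuousOn F (sphere z₀ R) := hcont.mono (sphere_subset_closedBall.trans hsubc)
    have hci : ContinuousOn (fun z : ℂ => (z - w)⁻¹) (sphere z₀ R) := ?_
    · exact ContinuousOn.smul hci hcs
    refine ContinuousOn.inv₀ (by fun_prop) ?_
    intro x hx hxw
    rw [sub_eq_zero] at hxw
    rw [hxw] at hx
    rw [mem_sphere] at hx
    rw [mem_ball] at hw
    linarith
  have h2 : (∮ z in C(z₀, R), (z - w)⁻¹ • F z) h = ∮ z in C(z₀, R), (z - w)⁻¹ • F z h := by
    have := ContinuousLinearMap.intervalIntegral_comp_comm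
      (BoundedContinuousFunction.evalCLM ℂ h : (ℝ →ᵇ ℂ) →L[ℂ] ℂ) hint.out
    simp only [circleIntegral]
    rw [← BoundedContinuousFunction.evalCLM_apply (𝕜 := ℂ) h, ← this]
    simp
  change F w h = (2 * π * I : ℂ)⁻¹ • (∮ z in C(z₀, R), (z - w)⁻¹ • F z) h
  rw [h2, h1]

end Vale.Agent.P352.BW.H266
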